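import Mathlib

/-!
The positively homogeneous extension of a surjective isometry between unit spheres.
-/

open scoped Topology
open Filter Set Metric

noncomputable section

namespace Vale.Agent.P084

variable {X Y : Type*} [NormedAddCommGroup X] [NormedSpace ℝ X] [NormedAddCommGroup Y]
  [NormedSpace ℝ Y]

/-- Properties of the homogeneous extension of a sphere isometry. -/
structure SphereExt (F : X → Y) (G : Y → X) : Prop where
  hnorm : ∀ a, ‖F a‖ = ‖a‖
  hhom : ∀ t : ℝ, 0 < t → ∀ a, F (t • a) = t • F a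
  hcone : ∀ a b, ‖‖b‖ • F a - ‖a‖ • F b‖ = ‖‖b‖ • a - ‖a‖ • b‖
  left : ∀ a, G (F a) = a
  right : ∀ y, F (G y) = y

lemma normalise_mem {a : X} (ha : a ≠ 0) : ‖a‖⁻¹ • a ∈ sphere (0 : X) 1 := by
  simp [norm_smul, ha]

open Classical in
/-- The positively homogeneous extension. -/
def homExt (f : sphere (0 : X) 1 ≃ᵢ sphere (0 : Y) 1) (a : X) : Y :=
  if ha : a = 0 then 0 else ‖a‖ • (f ⟨‖a‖⁻¹ • a, normalise_mem ha⟩ : Y)

lemma homExt_apply (f : sphere (0 : X) 1 ≃ᵢ sphere (0 : Y) 1) {t : ℝ} (ht : 0 < t)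
    (z : sphere (0 : X) 1) : homExt f (t • (z : X)) = t • (f z : Y) := by
  have hz : ‖(z : X)‖ = 1 := by simp
  have hne : t • (z : X) ≠ 0 := smul_ne_zero ht.ne' fun hc ↦ by simp [hc] at hz
  have hn : ‖t • (z : X)‖ = t := by rw [norm_smul, hz, Real.norm_eq_abs, abs_of_pos ht, mul_one]
  rw [homExt, dif_neg hne]
  have : (⟨‖t • (z : X)‖⁻¹ • t • (z : X), normalise_mem hne⟩ : sphere (0 : X) 1) = z := by
    ext; simp only [hn, smul_smul, inv_mul_cancel₀ ht.ne', one_smul]
  rw [this, hn]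

lemma exists_polar {a : X} (ha : a ≠ 0) :
    ∃ (t : ℝ) (z : sphere (0 : X) 1), 0 < t ∧ a = t • (z : X) :=
  ⟨‖a‖, ⟨_, normalise_mem ha⟩, norm_pos_iff.mpr ha, by simp [smul_smul, ha]⟩

lemma homExt_zero (f : sphere (0 : X) 1 ≃ᵢ sphere (0 : Y) 1) : homExt f 0 = 0 := by
  simp [homExt]

lemma homExt_symm (f : sphere (0 : X) 1 ≃ᵢ sphere (0 : Y) 1) (a : X) :
    homExt f.symm (homExt f a) = a := by
  rcases eq_or_ne a 0 with rfl | ha
  · simp [homExt_zero]
  · obtain ⟨t, z, ht, rfl⟩ := exists_polar ha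
    rw [homExt_apply f ht, homExt_apply f.symm ht, f.symm_apply_apply]

lemma sphereExt_homExt (f : sphere (0 : X) 1 ≃ᵢ sphere (0 : Y) 1) :
    SphereExt (homExt f) (homExt f.symm) where
  hnorm a := by
    rcases eq_or_ne a 0 with rfl | ha
    · simp [homExt_zero]
    · obtain ⟨t, z, ht, rfl⟩ := exists_polar ha
      simp [homExt_apply f ht, norm_smul]
  hhom t ht a := by
    rcases eq_or_ne a 0 with rfl | ha
    · simp [homExt_zero]
    · obtain ⟨s, z, hs, rfl⟩ := exists_polar ha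
      rw [smul_smul, homExt_apply f (mul_pos ht hs), homExt_apply f hs, smul_smul]
  hcone a b := by
    rcases eq_or_ne a 0 with rfl | ha
    · simp [homExt_zero]
    rcases eq_or_ne b 0 with rfl | hb
    · simp [homExt_zero]
    obtain ⟨s, z, hs, rfl⟩ := exists_polar ha
    obtain ⟨t, w, ht, rfl⟩ := exists_polar hb
    have hd : ‖(f z : Y) - f w‖ = ‖(z : X) - w‖ := by
      rw [← dist_eq_norm, ← dist_eq_norm, ← Subtype.dist_eq, ← Subtype.dist_eq, f.dist_eq]
    have hn : ‖s • (z : X)‖ = s := by simp [norm_smul, abs_of_pos hs]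
    have hn' : ‖t • (w : X)‖ = t := by simp [norm_smul, abs_of_pos ht]
    rw [hn, hn', homExt_apply f hs, homExt_apply f ht, smul_smul, smul_smul, smul_smul, smul_smul,
      mul_comm t s, ← smul_sub, ← smul_sub, norm_smul, norm_smul, hd]
  left := homExt_symm f
  right y := by simpa using homExt_symm f.symm y

namespace SphereExt

variable {F : X → Y} {G : Y → X} (e : SphereExt F G)
include e

lemma symm : SphereExt G F where
  hnorm y := by rw [← e.hnorm, e.right]
  hhom t ht y := by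
    conv_lhs => rw [← e.right y]
    rw [← e.hhom t ht, e.left]
  hcone p q := by
    have h := e.hcone (G p) (G q)
    rw [e.right, e.right] at h
    have hn : ∀ y, ‖G y‖ = ‖y‖ := fun y ↦ by rw [← e.hnorm, e.right]
    simpa [hn] using h.symm
  left := e.right
  right := e.left

lemma map_zero : F 0 = 0 := norm_eq_zero.mp (by rw [e.hnorm, norm_zero])

lemma ne_zero {a : X} (ha : a ≠ 0) : F a ≠ 0 := fun hc ↦ ha <| norm_eq_zero.mp (by
  rw [← e.hnorm, hc, norm_zero])

lemma norm_sub_le (a b : X) : ‖F a - F b‖ ≤ 3 * ‖a - b‖ := by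
  rcases eq_or_ne b 0 with rfl | hb
  · simp [e.map_zero, e.hnorm]; linarith [norm_nonneg a]
  have hb' : 0 < ‖b‖ := norm_pos_iff.mpr hb
  have hd : |‖a‖ - ‖b‖| ≤ ‖a - b‖ := abs_norm_sub_norm_le a b
  have h1 : ‖b‖ • (F a - F b) = (‖b‖ • F a - ‖a‖ • F b) + (‖a‖ - ‖b‖) • F b := by module
  have h2 : ‖b‖ • a - ‖a‖ • b = ‖b‖ • (a - b) - (‖a‖ - ‖b‖) • b := by module
  have h3 : ‖b‖ * ‖F a - F b‖ ≤ 3 * ‖b‖ * ‖a - b‖ := by
    calc ‖b‖ * ‖F a - F b‖ = ‖‖b‖ • (F a - F b)‖ := by rw [norm_smul, norm_norm]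
      _ ≤ ‖‖b‖ • a - ‖a‖ • b‖ + |‖a‖ - ‖b‖| * ‖b‖ := by
          rw [h1]; refine (norm_add_le _ _).trans ?_
          rw [e.hcone, norm_smul (_ : ℝ) (F b), e.hnorm, Real.norm_eq_abs]
      _ ≤ (‖b‖ * ‖a - b‖ + |‖a‖ - ‖b‖| * ‖b‖) + |‖a‖ - ‖b‖| * ‖b‖ := by
          gcongr; rw [h2]; refine (_root_.norm_sub_le _ _).trans ?_
          rw [norm_smul, norm_smul, norm_norm, Real.norm_eq_abs]
      _ ≤ 3 * ‖b‖ * ‖a - b‖ := by nlinarith
  exact le_of_mul_le_mul_left (by linarith) hb'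

lemma lipschitz : LipschitzWith 3 F := LipschitzWith.of_dist_le_mul fun a b ↦ by
  simpa [dist_eq_norm] using e.norm_sub_le a b

lemma continuous : Continuous F := e.lipschitz.continuous

lemma finiteDimensional [FiniteDimensional ℝ X] : FiniteDimensional ℝ Y := by
  have h : F '' closedBall 0 1 = closedBall 0 1 := by
    ext y
    simp only [mem_image, mem_closedBall_zero_iff]
    exact ⟨fun ⟨a, ha, hy⟩ ↦ hy ▸ (e.hnorm a).symm ▸ ha,
      fun hy ↦ ⟨G y, by rw [e.symm.hnorm]; exact hy, e.right y⟩⟩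
  exact FiniteDimensional.of_isCompact_closedBall ℝ one_pos
    (h ▸ (isCompact_closedBall (0 : X) 1).image e.continuous)

lemma finrank_eq [FiniteDimensional ℝ X] [FiniteDimensional ℝ Y] :
    Module.finrank ℝ X = Module.finrank ℝ Y := by
  have h1 := e.lipschitz.dimH_range_le
  have h2 := e.symm.lipschitz.dimH_range_le
  rw [(Function.RightInverse.surjective e.right).range_eq] at h1
  rw [(Function.RightInverse.surjective e.left).range_eq] at h2
  rw [Real.dimH_univ_eq_finrank, Real.dimH_univ_eq_finrank] at h1 h2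
  exact le_antisymm (by exact_mod_cast h2) (by exact_mod_cast h1)

variable (hsc : ∀ x z : X, ‖x‖ = 1 → ‖z‖ = 1 → ‖x + z‖ = 2 → z = x)
include hsc

lemma odd (a : X) : F (-a) = -F a := by
  rcases eq_or_ne a 0 with rfl | ha
  · simp [e.map_zero]
  have hn : 0 < ‖a‖ := norm_pos_iff.mpr ha
  set x := ‖a‖⁻¹ • a with hxdef
  have hx : ‖x‖ = 1 := by simp [x, norm_smul, ha]
  set q := G (-(F x)) with hqdef
  have hq : ‖q‖ = 1 := by rw [hqdef, e.symm.hnorm, norm_neg, e.hnorm, hx]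
  have h := e.hcone x q
  rw [hx, hq, one_smul, one_smul, one_smul, one_smul, hqdef, e.right, sub_neg_eq_add, ← two_smul ℝ,
    norm_smul, e.hnorm, hx, mul_one, Real.norm_ofNat, ← hqdef] at h
  have hqx : -q = x := hsc x (-q) hx (by rw [norm_neg]; exact hq) (by rw [← sub_eq_add_neg, ← h])
  have hFx : F (-x) = -F x := by rw [← hqx, neg_neg, hqdef, e.right, hqx]
  have ha' : a = ‖a‖ • x := by simp [x, smul_smul, hn.ne']
  rw [ha', ← smul_neg, e.hhom _ hn, e.hhom _ hn, hFx, smul_neg]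

lemma smul_all (t : ℝ) (a : X) : F (t • a) = t • F a := by
  rcases lt_trichotomy t 0 with h | rfl | h
  · rw [show t • a = -((-t) • a) by simp, e.odd hsc, e.hhom _ (by linarith)]
    simp
  · simp [e.map_zero]
  · exact e.hhom t h a

end SphereExt

end Vale.Agent.P084
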